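import Vale.Agent.Lib.P141.Test
import Vale.Agent.Lib.P141.Geo
import Vale.Agent.Lib.P141.Digits

/-!
# P141: every digit pattern gives a region of Hölder tuples at which `T` is unbounded
-/

open MeasureTheory Filter Topology
open scoped ENNReal NNReal

namespace Vale.Agent.Lib.P141

/-- **Pattern theorem.** -/
theorem not_boundedAt_of_pattern {P : Finset (ℤ × ℤ)} {b : ℤ} (hb : 2 ≤ b) (hP : DistinctMod P b)
    {p₁ p₂ p₃ r : ℝ≥0∞} (hH : IsHolder p₁ p₂ p₃ r)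
    (hcond : (b : ℝ) * ((P.image (proj 1)).card : ℝ) ^ p₁.toReal⁻¹ *
        ((P.image (proj 2)).card : ℝ) ^ p₂.toReal⁻¹ * ((P.image (proj 3)).card : ℝ) ^ p₃.toReal⁻¹ <
      (P.card : ℝ) ^ r.toReal⁻¹) :
    ¬ BoundedAt p₁ p₂ p₃ r := by
  intro hB
  obtain ⟨C, hC, hineq⟩ := config_ineq hH.pos.ne' hH.fin.ne hB
  obtain ⟨K, hK, hconf⟩ := exists_config hb hP
  have hb0 : (0 : ℝ) < b := by exact_mod_cast (by linarith : (0 : ℤ) < b)
  have hb1 : (1 : ℝ) ≤ b := by exact_mod_cast (by linarith : (1 : ℤ) ≤ b)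
  have hne : P.Nonempty := by
    rw [Finset.nonempty_iff_ne_empty]
    intro h0
    have hρ : r.toReal⁻¹ ≠ 0 := inv_ne_zero (ENNReal.toReal_pos hH.pos.ne' hH.fin.ne).ne'
    rw [h0, Finset.card_empty, Nat.cast_zero, Real.zero_rpow hρ] at hcond
    have : (0 : ℝ) ≤ (b : ℝ) * (((∅ : Finset (ℤ × ℤ)).image (proj 1)).card : ℝ) ^ p₁.toReal⁻¹ *
        (((∅ : Finset (ℤ × ℤ)).image (proj 2)).card : ℝ) ^ p₂.toReal⁻¹ *
        (((∅ : Finset (ℤ × ℤ)).image (proj 3)).card : ℝ) ^ p₃.toReal⁻¹ := by positivity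
    linarith
  refine no_geometric hb0 hK hC (Finset.card_pos.mpr (hne.image _))
    (Finset.card_pos.mpr (hne.image _)) (Finset.card_pos.mpr (hne.image _))
    (inv_nonneg.mpr ENNReal.toReal_nonneg) (inv_toReal_mem hH.lt₁).1
    (inv_toReal_mem hH.lt₂).1 (inv_toReal_mem hH.lt₃).1 hcond ?_
  intro k
  obtain ⟨G, S₁, S₂, S₃, hsep, hG, h0, h1, h2, h3⟩ := hconf k
  refine ⟨S₁.card, S₂.card, S₃.card, h1, h2, h3, ?_⟩
  have hM : 1 ≤ K * (b : ℝ) ^ k := by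
    have : (1 : ℝ) ≤ (b : ℝ) ^ k := one_le_pow₀ hb1
    nlinarith
  have := hineq S₁ S₂ S₃ (K * (b : ℝ) ^ k) G hM hsep hG
  rw [h0] at this
  exact this

end Vale.Agent.Lib.P141
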